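import Vale.Agent.P249.Reduce

open MeasureTheory

universe u

/-- Subpolynomial dimension reduction in `L_p`: for `1 < p < ∞`, `p ≠ 2`, `D > 1`, every
`n`-point subset of every real `L_p(μ)` maps into `ℓ_p^d` with distortion at most `D`, where
`d ≤ exp (C (log n) ^ |1 - 2 / p|)` depends only on `n`, `p`, `D`. -/
theorem Vale.Agent.Results.P249.Subpoly.result (p D : ℝ) (hp : 1 < p) (hp2 : p ≠ 2)
    (hD : 1 < D) :
    ∃ C : ℝ, ∀ n : ℕ, 2 ≤ n → ∃ d : ℕ, (d : ℝ) ≤ Real.exp (C * Real.log n ^ |1 - 2 / p|) ∧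
      ∀ (Ω : Type u) [MeasurableSpace Ω] (μ : Measure Ω)
        (X : Finset (Lp ℝ (ENNReal.ofReal p) μ)), X.card = n →
        ∃ (f : Lp ℝ (ENNReal.ofReal p) μ → Fin d → ℝ) (s : ℝ), 0 < s ∧ ∀ x ∈ X, ∀ x' ∈ X,
          s * ‖x - x'‖ ≤ (∑ k, |f x k - f x' k| ^ p) ^ (1 / p) ∧
          (∑ k, |f x k - f x' k| ^ p) ^ (1 / p) ≤ D * s * ‖x - x'‖ :=
  Vale.Agent.P249.main p D hp hp2 hD
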