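import Vale.Agent.P249.Reduce
import Vale.Agent.P249.Exact

open MeasureTheory

universe u

/-- Subpolynomial dimension reduction in `L_p` at every distortion `D > 1`, in contrast with a
quadratic lower bound at distortion `1`. -/
theorem Vale.Agent.Results.P249.SubpolyExact.result (p : ℝ) (hp : 1 < p) (hp2 : p ≠ 2) :
    (∀ D : ℝ, 1 < D →
      ∃ C : ℝ, ∀ n : ℕ, 2 ≤ n → ∃ d : ℕ, (d : ℝ) ≤ Real.exp (C * Real.log n ^ |1 - 2 / p|) ∧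
        ∀ (Ω : Type u) [MeasurableSpace Ω] (μ : Measure Ω)
          (X : Finset (Lp ℝ (ENNReal.ofReal p) μ)), X.card = n →
          ∃ (f : Lp ℝ (ENNReal.ofReal p) μ → Fin d → ℝ) (s : ℝ), 0 < s ∧ ∀ x ∈ X, ∀ x' ∈ X,
            s * ‖x - x'‖ ≤ (∑ k, |f x k - f x' k| ^ p) ^ (1 / p) ∧
            (∑ k, |f x k - f x' k| ^ p) ^ (1 / p) ≤ D * s * ‖x - x'‖) ∧
    (∀ n : ℕ, 2 ≤ n → ∃ (m : ℕ) (X : Finset (Fin m → ℝ)), X.card = n ∧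
      ∀ (d : ℕ) (f : (Fin m → ℝ) → Fin d → ℝ) (s : ℝ), 0 < s →
        (∀ x ∈ X, ∀ x' ∈ X, (∑ k, |f x k - f x' k| ^ p) ^ (1 / p) =
          s * (∑ t, |x t - x' t| ^ p) ^ (1 / p)) → ((n - 1) / 4) ^ 2 ≤ d) :=
  ⟨fun D hD => Vale.Agent.P249.main p D hp hp2 hD, Vale.Agent.P249.exact_lower p hp hp2⟩
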